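import Vale.Agent.P192.Ends.Splice

/-!
# Splicing an infinite orbit
-/

namespace Vale.Agent.P192.Ends

variable {G : Type*} [Group G] {X : Type*}

/-- The action on one orbit. -/
def orbitHom (ρ : G →* Equiv.Perm X) (x : X) :
    G →* Equiv.Perm {y // ∃ g, ρ g x = y} where
  toFun a := (ρ a).subtypePerm fun y => by
    constructor
    · rintro ⟨b, hb⟩
      exact ⟨a⁻¹ * b, by rw [map_mul, Equiv.Perm.mul_apply, hb, map_inv]; simp⟩
    · rintro ⟨b, rfl⟩
      exact ⟨a * b, by simp⟩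
  map_one' := Equiv.ext fun y => by simp
  map_mul' a b := Equiv.ext fun y => Subtype.ext
    ((congrArg (fun q : Equiv.Perm X => q y.1) (ρ.map_mul a b)).trans rfl)

theorem orbitHom_transitive (ρ : G →* Equiv.Perm X) (x : X) (y z : {y // ∃ g, ρ g x = y}) :
    ∃ g, orbitHom ρ x g y = z := by
  obtain ⟨y, a, rfl⟩ := y
  obtain ⟨z, b, rfl⟩ := z
  exact ⟨b * a⁻¹, Subtype.ext (by simp [orbitHom])⟩

theorem splice_crossing [hP : Group.IsFinitelyPresented G] (ρ : G →* Equiv.Perm X)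
    (htrans : ∀ x y, ∃ g, ρ g x = y) (A : ℕ → Set X) (hanti : Antitone A)
    (hne : ∀ t, (A t).Nonempty) (hesc : ∀ x, ∃ t, x ∉ A t)
    (hcr : ∀ g, ∃ w : ℕ, ∀ t, {y | y ∈ A t ∧ ρ g y ∉ A t}.encard ≤ (w : ℕ∞)) :
    ∃ i j, i < j ∧ ∃ ψ : G →* Equiv.Perm (ℤ × {x // x ∈ A i \ A j}),
      (∀ g m z, ψ g (sh m z) = sh m (ψ g z)) ∧ ∃ g z, ψ g (0, z) = (1, z) := by
  classical
  obtain ⟨n, φ, hφ, S, hS, hker⟩ := hP.out
  choose w hw using fun s : Fin n × Bool => hcr (φ (FreeGroup.mk [s]))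
  have hfin : ∀ s t, {y | y ∈ A t ∧ ρ (φ (FreeGroup.mk [s])) y ∉ A t}.Finite := fun s t =>
    Set.finite_of_encard_le_coe (hw s t)
  let B : ℕ → Finset X := fun t => Finset.univ.biUnion fun s => (hfin s t).toFinset
  have hcard : ∀ t, (B t).card ≤ ∑ s, w s := fun t => by
    refine Finset.card_biUnion_le.trans (Finset.sum_le_sum fun s _ => ?_)
    have h := hw s t
    rw [(hfin s t).encard_eq_coe_toFinset_card] at h
    exact_mod_cast h
  choose x0 hx0 using hne
  let b : ℕ → Fin (∑ s, w s) ⊕ Unit → X := fun t (a : Fin (∑ s, w s) ⊕ Unit) =>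
    a.elim (fun c : Fin (∑ s, w s) => (B t).toList.getD (c : ℕ) (x0 t)) fun _ => x0 t
  let e : Fin (∑ s, w s + 1) ≃ Fin (∑ s, w s) ⊕ Unit :=
    finSumFinEquiv.symm.trans (Equiv.sumCongr (Equiv.refl _) finOneEquiv)
  refine splice φ hφ S hS hker ρ htrans A hanti (fun t => ⟨x0 t, hx0 t⟩) hesc _
    (fun t a => b t (e a)) (fun t a => ?_) fun t s x hx hsx => ?_
  · rcases e a with a | a
    · simp only [b, Sum.elim_inl]
      rcases lt_or_ge (a : ℕ) (B t).toList.length with h | h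
      · rw [List.getD_eq_getElem _ _ h]
        have hm : (B t).toList[(a : ℕ)] ∈ B t := Finset.mem_toList.1 (List.getElem_mem h)
        simp only [B, Finset.mem_biUnion, Set.Finite.mem_toFinset] at hm
        obtain ⟨s, -, hs⟩ := hm
        exact hs.1
      · rw [List.getD_eq_default _ _ h]
        exact hx0 t
    · exact hx0 t
  · have hm : x ∈ (B t).toList := Finset.mem_toList.2 (Finset.mem_biUnion.2
      ⟨s, Finset.mem_univ _, (hfin s t).mem_toFinset.2 ⟨hx, hsx⟩⟩)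
    obtain ⟨k, hk, hkx⟩ := List.getElem_of_mem hm
    have hkW : k < ∑ s, w s := lt_of_lt_of_le (by simpa using hk) (hcard t)
    refine ⟨e.symm (Sum.inl ⟨k, hkW⟩), ?_⟩
    simp only [Equiv.apply_symm_apply, b, Sum.elim_inl]
    rw [List.getD_eq_getElem _ _ hk, hkx]

end Vale.Agent.P192.Ends
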