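import Vale.Agent.P192.Ends.Orbit

/-!
# Periodic finitely presented groups: no thin ends, bounded activity tree actions
-/

namespace Vale.Agent.P192.Ends

variable {G : Type*} [Group G]

/-- No transitive action of a finitely presented periodic group has a thin end. -/
theorem no_thin_end [Group.IsFinitelyPresented G] (hG : ∀ g : G, IsOfFinOrder g) {X : Type*}
    (ρ : G →* Equiv.Perm X) (htrans : ∀ x y, ∃ g, ρ g x = y) (A : ℕ → Set X) (hanti : Antitone A)
    (hne : ∀ t, (A t).Nonempty) (hesc : ∀ x, ∃ t, x ∉ A t)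
    (hcr : ∀ g, ∃ w : ℕ, ∀ t, {y | y ∈ A t ∧ ρ g y ∉ A t}.encard ≤ (w : ℕ∞)) : False := by
  obtain ⟨i, j, -, ψ, hsh, g, z, hg⟩ := splice_crossing ρ htrans A hanti hne hesc hcr
  obtain ⟨N, hN, hgN⟩ := isOfFinOrder_iff_pow_eq_one.mp (hG g)
  have hpow : ∀ k : ℕ, ψ (g ^ k) (0, z) = ((k : ℤ), z) := by
    intro k
    induction k with
    | zero => simp
    | succ k ih =>
      rw [pow_succ', map_mul, Equiv.Perm.mul_apply, ih]
      have := hsh g k (0, z)
      simp only [sh, add_zero, hg] at this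
      rw [this]
      push_cast
      rfl
  have h := hpow N
  rw [hgN, map_one] at h
  have h1 : (0 : ℤ) = N := congrArg Prod.fst h
  omega

/-- Points of the boundary of a rooted tree. -/
abbrev Ray (d : ℕ → ℕ) := (k : ℕ) → Fin (d k)

/-- Bounded activity forces finite orbits on the boundary. -/
theorem finite_boundary_orbit [hP : Group.IsFinitelyPresented G] (hG : ∀ g : G, IsOfFinOrder g)
    (d : ℕ → ℕ) (ρ : G →* Equiv.Perm (Ray d))
    (htree : ∀ g (x y : Ray d) t, (∀ k < t, x k = y k) → ∀ k < t, ρ g x k = ρ g y k)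
    (hact : ∀ g, ∃ K : ℕ, ∀ t, {v : (k : Fin t) → Fin (d k) |
      ∃ x : Ray d, (∀ k : Fin t, x k = v k) ∧ ∃ k, t ≤ k ∧ ρ g x k ≠ x k}.encard ≤ (K : ℕ∞))
    (ξ : Ray d) : (Set.range fun g => ρ g ξ).Finite := by
  classical
  obtain ⟨n, φ, hφ, -, -, -⟩ := id hP.out
  choose K hK using hact
  let Tail : Ray d → Ray d → ℕ → Prop := fun x y t => ∀ k, t ≤ k → x k = y k
  let Sing : G → Set (Ray d) := fun g => {x | ∀ t, ¬ Tail (ρ g x) x t}
  have hsing : ∀ g, (Sing g).Finite := by
    intro g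
    refine Set.not_infinite.1 fun hi => ?_
    obtain ⟨F, hF, hFc⟩ := hi.exists_subset_card_eq (K g + 1)
    have hsep : ∃ t, ∀ x ∈ F, ∀ y ∈ F, (∀ k < t, x k = y k) → x = y := by
      choose c hc using fun q : {q : F × F // q.1.1 ≠ q.2.1} => Function.ne_iff.1 q.2
      obtain ⟨B, hB⟩ := Finite.exists_le c
      refine ⟨B + 1, fun x hx y hy h => by_contra fun hne => ?_⟩
      exact hc ⟨(⟨x, hx⟩, ⟨y, hy⟩), hne⟩ (h _ (Nat.lt_succ_of_le (hB _)))
    obtain ⟨t, ht⟩ := hsep
    have hinj : Set.InjOn (fun (x : Ray d) (k : Fin t) => x k) (F : Set (Ray d)) :=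
      fun x hx y hy h => ht x hx y hy fun k hk => congrFun h ⟨k, hk⟩
    have h1 : ((fun (x : Ray d) (k : Fin t) => x k) '' (F : Set (Ray d))).encard ≤ (K g : ℕ∞) := by
      refine le_trans (Set.encard_le_encard ?_) (hK g t)
      rintro v ⟨x, hx, rfl⟩
      refine ⟨x, fun k => rfl, ?_⟩
      have := hF hx t
      simp only [Tail, not_forall] at this
      obtain ⟨k, hk, hk'⟩ := this
      exact ⟨k, hk, hk'⟩
    rw [hinj.encard_image, Set.encard_coe_eq_coe_finsetCard, hFc] at h1
    have h2 : K g + 1 ≤ K g := by exact_mod_cast h1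
    omega
  let R : Finset (Ray d) := insert ξ (Finset.univ.biUnion fun s : Fin n × Bool =>
    (hsing (φ (FreeGroup.mk [s]))).toFinset.image (ρ (φ (FreeGroup.mk [s]))))
  have hclass : ∀ g, ∃ r ∈ R, ∃ t, Tail (ρ g ξ) r t := by
    intro g
    obtain ⟨v, rfl⟩ := hφ g
    rw [← FreeGroup.mk_toWord (x := v)]
    generalize v.toWord = u
    induction u with
    | nil => exact ⟨ξ, Finset.mem_insert_self _ _, 0, fun k _ => by simp [← FreeGroup.one_eq_mk]⟩
    | cons s u ih =>
      obtain ⟨r, hr, t, ht⟩ := ih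
      have e : FreeGroup.mk (s :: u) = FreeGroup.mk [s] * FreeGroup.mk u := by
        simp [FreeGroup.mul_mk]
      rw [e, map_mul φ, map_mul ρ, Equiv.Perm.mul_apply]
      by_cases hS : ρ (φ (FreeGroup.mk u)) ξ ∈ Sing (φ (FreeGroup.mk [s]))
      · exact ⟨_, Finset.mem_insert_of_mem (Finset.mem_biUnion.2 ⟨s, Finset.mem_univ _,
          Finset.mem_image_of_mem _ ((hsing _).mem_toFinset.2 hS)⟩), 0, fun k _ => rfl⟩
      · simp only [Sing, Set.mem_ofPred_eq, not_forall, not_not] at hS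
        obtain ⟨t', ht'⟩ := hS
        exact ⟨r, hr, t + t', fun k hk => (ht' k (by omega)).trans (ht k (by omega))⟩
  by_contra hinf
  let Y := {y // ∃ g, ρ g ξ = y}
  let A : ℕ → Set Y := fun t => {y | ∀ r ∈ R, ¬ Tail y.1 r t}
  refine no_thin_end hG (orbitHom ρ ξ) (orbitHom_transitive ρ ξ) A
    (fun t t' h y hy r hr hT => hy r hr fun k hk => hT k (by omega)) (fun t => ?_)
    (fun ⟨y, g, hg⟩ => ?_) (fun g => ⟨K g * R.card, fun t => ?_⟩)
  · by_contra hne
    refine hinf (Set.Finite.subset (s := ⋃ r ∈ R, {y : Ray d | Tail y r t}) ?_ ?_)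
    · refine R.finite_toSet.biUnion fun r _ => ?_
      refine Set.Finite.of_finite_image (f := fun (y : Ray d) (k : Fin t) => y k)
        (Set.toFinite _) fun y hy y' hy' h => funext fun k => ?_
      rcases lt_or_ge k t with hk | hk
      · exact congrFun h ⟨k, hk⟩
      · exact (hy k hk).trans (hy' k hk).symm
    · rintro _ ⟨g, rfl⟩
      by_contra hy
      simp only [Set.mem_iUnion, Set.mem_ofPred_eq, exists_prop, not_exists, not_and] at hy
      exact hne ⟨⟨ρ g ξ, g, rfl⟩, hy⟩
  · obtain ⟨r, hr, t, ht⟩ := hclass g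
    exact ⟨t, fun hy => hy r hr (hg ▸ ht)⟩
  · set V := {v : (k : Fin t) → Fin (d k) |
      ∃ x : Ray d, (∀ k : Fin t, x k = v k) ∧ ∃ k, t ≤ k ∧ ρ g x k ≠ x k} with hV
    have hVfin : V.Finite := Set.toFinite _
    have hVc : hVfin.toFinset.card ≤ K g := by
      have h : V.encard ≤ (K g : ℕ∞) := hK g t
      rw [hVfin.encard_eq_coe_toFinset_card] at h
      exact_mod_cast h
    set E := {y : Y | y ∈ A t ∧ orbitHom ρ ξ g y ∉ A t}
    have hE : ∀ y : E, ∃ r ∈ R, Tail (ρ g y.1.1) r t := fun y => by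
      by_contra h
      simp only [not_exists, not_and] at h
      exact y.2.2 h
    choose r hr hrT using hE
    let f : E → ↥(hVfin.toFinset ×ˢ R) := fun y => ⟨(fun k => y.1.1 k, r y), by
      refine Finset.mem_product.2 ⟨hVfin.mem_toFinset.2 ⟨y.1.1, fun k => rfl, ?_⟩, hr y⟩
      have := y.2.1 _ (hr y)
      simp only [Tail, not_forall] at this
      obtain ⟨k, hk, hk'⟩ := this
      exact ⟨k, hk, fun e => hk' (e.symm.trans (hrT y k hk))⟩⟩
    have hf : Function.Injective f := by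
      intro y y' h
      simp only [f, Subtype.mk.injEq, Prod.mk.injEq] at h
      refine Subtype.ext (Subtype.ext ((ρ g).injective (funext fun k => ?_)))
      rcases lt_or_ge k t with hk | hk
      · exact htree g _ _ t (fun k hk => congrFun h.1 ⟨k, hk⟩) k hk
      · rw [hrT y k hk, hrT y' k hk, h.2]
    have hEfin : E.Finite := Set.finite_coe_iff.1 (Finite.of_injective f hf)
    have := hEfin.to_subtype
    rw [hEfin.encard_eq_coe_toFinset_card]
    have h2 := Nat.card_le_card_of_injective f hf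
    rw [Nat.card_eq_finsetCard, Finset.card_product, Nat.card_eq_card_finite_toFinset hEfin] at h2
    have := h2.trans (Nat.mul_le_mul_right R.card hVc)
    exact_mod_cast this

end Vale.Agent.P192.Ends
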