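import Mathlib

/-!
# Thin ends of coset graphs of finitely presented groups: the spliced periodic action

Given nested sets with boundedly many boundary points and empty intersection in a transitive action
of a finitely presented group, two levels with the same bounded neighbourhood data are spliced
into an action on `ℤ × D` that commutes with the shift and in which some element moves a point to
its own translate.
-/

namespace Vale.Agent.P192.Ends

variable {n : ℕ} {X : Type*}

/-- Reading a word, the last letter first. -/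
def run (L : Fin n × Bool → Equiv.Perm X) (u : List (Fin n × Bool)) (x : X) : X :=
  u.foldr (fun s y => L s y) x

theorem run_cons (L : Fin n × Bool → Equiv.Perm X) (s : Fin n × Bool) (u : List (Fin n × Bool))
    (x : X) : run L (s :: u) x = L s (run L u x) := rfl

theorem prod_eq (L : Fin n × Bool → Equiv.Perm X) (u : List (Fin n × Bool)) (x : X) :
    (u.map L).prod x = run L u x := by
  induction u with
  | nil => rfl
  | cons s u ih => simp [run_cons, ih]

/-- Connection inside a set. -/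
def Conn (L : Fin n × Bool → Equiv.Perm X) (P : Set X) : X → X → Prop :=
  Relation.ReflTransGen fun x y => x ∈ P ∧ y ∈ P ∧ ∃ s, L s x = y

theorem Conn.mono {L : Fin n × Bool → Equiv.Perm X} {P Q : Set X} (h : P ⊆ Q) {x y : X}
    (hc : Conn L P x y) : Conn L Q x y :=
  Relation.ReflTransGen.mono (fun _ _ ⟨h1, h2, h3⟩ => ⟨h h1, h h2, h3⟩) _ _ hc

theorem Conn.symm {L : Fin n × Bool → Equiv.Perm X}
    (hop : ∀ s x, L (s.1, !s.2) (L s x) = x) {P : Set X} {x y : X} (hc : Conn L P x y) :
    Conn L P y x := by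
  induction hc with
  | refl => exact Relation.ReflTransGen.refl
  | tail _ h ih =>
    obtain ⟨h1, h2, s, rfl⟩ := h
    exact Relation.ReflTransGen.head ⟨h2, h1, _, hop s _⟩ ih

/-- A connection uses finitely many points, so it avoids a sufficiently late member of a nested
family with empty intersection. -/
theorem Conn.avoid {L : Fin n × Bool → Equiv.Perm X} {P : Set X} {A : ℕ → Set X}
    (hanti : Antitone A) (hesc : ∀ x, ∃ t, x ∉ A t) {x y : X} (hc : Conn L P x y) :
    ∃ t, ∀ u, t ≤ u → Conn L (P \ A u) x y := by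
  induction hc with
  | refl => exact ⟨0, fun _ _ => Relation.ReflTransGen.refl⟩
  | @tail b c _ h ih =>
    obtain ⟨t, ht⟩ := ih
    obtain ⟨t1, h1⟩ := hesc b
    obtain ⟨t2, h2⟩ := hesc c
    exact ⟨t + t1 + t2, fun u hu => Relation.ReflTransGen.tail (ht u (by omega))
      ⟨⟨h.1, fun hb => h1 (hanti (by omega) hb)⟩, ⟨h.2.1, fun hb => h2 (hanti (by omega) hb)⟩,
        h.2.2⟩⟩

/-- Translation of `ℤ × D`. -/
def sh {D : Type*} (m : ℤ) (z : ℤ × D) : ℤ × D := (m + z.1, z.2)

/-- The splicing theorem. -/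
theorem splice {G : Type*} [Group G] (φ : FreeGroup (Fin n) →* G) (hφ : Function.Surjective φ)
    (S : Set (FreeGroup (Fin n))) (hS : S.Finite) (hker : Subgroup.normalClosure S = φ.ker)
    (ρ : G →* Equiv.Perm X) (htrans : ∀ x y, ∃ g, ρ g x = y) (A : ℕ → Set X) (hanti : Antitone A)
    (hne : ∀ t, (A t).Nonempty) (hesc : ∀ x, ∃ t, x ∉ A t) (w : ℕ) (b : ℕ → Fin w → X)
    (hb : ∀ t a, b t a ∈ A t)
    (hbd : ∀ t s x, x ∈ A t → ρ (φ (FreeGroup.mk [s])) x ∉ A t → ∃ a, b t a = x) :
    ∃ i j, i < j ∧ ∃ ψ : G →* Equiv.Perm (ℤ × {x // x ∈ A i \ A j}),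
      (∀ g m z, ψ g (sh m z) = sh m (ψ g z)) ∧ ∃ g z, ψ g (0, z) = (1, z) := by
  classical
  set L : Fin n × Bool → Equiv.Perm X := fun s => ρ (φ (FreeGroup.mk [s])) with hL
  have hmk : ∀ u x, ρ (φ (FreeGroup.mk u)) x = run L u x := by
    intro u x
    induction u with
    | nil => simp [← FreeGroup.one_eq_mk, run]
    | cons s u ih =>
      have e : FreeGroup.mk (s :: u) = FreeGroup.mk [s] * FreeGroup.mk u := by
        simp [FreeGroup.mul_mk]
      rw [e, map_mul φ, map_mul ρ, Equiv.Perm.mul_apply, ih, run_cons]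
  have hop : ∀ s x, L (s.1, !s.2) (L s x) = x := by
    intro s x
    have h : FreeGroup.mk [(s.1, !s.2)] = (FreeGroup.mk [s])⁻¹ := by
      simp [FreeGroup.inv_mk, FreeGroup.invRev]
    simp only [hL]
    rw [h, map_inv φ, map_inv ρ]
    simp
  set M : ℕ := hS.toFinset.sup fun v => v.toWord.length
  set r : ℕ := M + 3 with hr
  have hfin : Finite {u : List (Fin n × Bool) // u.length ≤ r} :=
    (List.finite_length_le (Fin n × Bool) r).to_subtype
  let W := {u : List (Fin n × Bool) // u.length ≤ r} × Fin w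
  let pt : ℕ → List (Fin n × Bool) → Fin w → X := fun t u a => run L u (b t a)
  let key : ℕ → Set (W × W) × Set W × Set (Fin w × Fin w) := fun t =>
    ({q | pt t q.1.1.1 q.1.2 = pt t q.2.1.1 q.2.2}, {q | pt t q.1.1 q.2 ∈ A t},
      {q | Conn L (A t) (b t q.1) (b t q.2)})
  obtain ⟨st, hst⟩ := Finite.exists_infinite_fiber key
  have hJ : (key ⁻¹' {st}).Infinite := Set.infinite_coe_iff.1 hst
  have hev : ∀ i, ∃ T, i < T ∧ ∀ j, T ≤ j → (∀ u a, u.length ≤ r + 1 → pt i u a ∉ A j) ∧
      ∀ a a', Conn L (A i) (b i a) (b i a') → Conn L (A i \ A j) (b i a) (b i a') := by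
    intro i
    have : Finite {u : List (Fin n × Bool) // u.length ≤ r + 1} :=
      (List.finite_length_le (Fin n × Bool) (r + 1)).to_subtype
    choose T1 hT1 using fun q : {u : List (Fin n × Bool) // u.length ≤ r + 1} × Fin w =>
      hesc (pt i q.1.1 q.2)
    choose T2 hT2 using fun q : {q : Fin w × Fin w // Conn L (A i) (b i q.1) (b i q.2)} =>
      q.2.avoid hanti hesc
    obtain ⟨B1, hB1⟩ := Finite.exists_le T1
    obtain ⟨B2, hB2⟩ := Finite.exists_le T2
    refine ⟨i + 1 + B1 + B2, by omega, fun j hj => ⟨fun u a hu hmem => ?_, fun a a' h => ?_⟩⟩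
    · have := hB1 (⟨u, hu⟩, a)
      exact hT1 (⟨u, hu⟩, a) (hanti (by omega) hmem)
    · have := hB2 ⟨(a, a'), h⟩
      exact hT2 ⟨(a, a'), h⟩ j (by omega)
  choose T hTi hT using hev
  obtain ⟨x0, -⟩ := hne 0
  obtain ⟨t0, ht0⟩ := hesc x0
  have hreach : ∀ t, t0 ≤ t → ∀ x ∈ A t, ∃ a, Conn L (A t) x (b t a) := by
    intro t ht x hx
    obtain ⟨g, hg⟩ := htrans x0 x
    obtain ⟨v, rfl⟩ := hφ g
    rw [← FreeGroup.mk_toWord (x := v), hmk] at hg
    subst hg
    generalize v.toWord = u at hx ⊢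
    induction u with
    | nil => exact absurd (hanti ht hx) ht0
    | cons s u ih =>
      rw [run_cons] at hx ⊢
      by_cases hy : run L u x0 ∈ A t
      · obtain ⟨a, ha⟩ := ih hy
        exact ⟨a, Relation.ReflTransGen.head ⟨hx, hy, _, hop s _⟩ ha⟩
      · obtain ⟨a, ha⟩ := hbd t (s.1, !s.2) _ hx (by
          change L _ _ ∉ A t
          rwa [hop])
        exact ⟨a, by rw [ha]; exact Relation.ReflTransGen.refl⟩
  -- a chain of well separated levels with the same data
  choose nx hnxJ hnxlt using fun i : ℕ => hJ.exists_gt (T i + t0)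
  let lev : ℕ → ℕ := fun t => Nat.rec (nx 0) (fun _ i => nx i) t
  have hlevJ : ∀ t, key (lev t) = st := by
    intro t
    cases t with
    | zero => exact hnxJ 0
    | succ t => exact hnxJ (lev t)
  have hlev : ∀ t, T (lev t) + t0 < lev (t + 1) := fun t => hnxlt (lev t)
  have hlev0 : ∀ t, t0 ≤ lev t := by
    intro t
    cases t with
    | zero =>
      change t0 ≤ nx 0
      have := hnxlt 0
      omega
    | succ t => have := hlev t; omega
  have hmono : StrictMono lev := strictMono_nat_of_lt_succ fun t => by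
    have := hTi (lev t); have := hlev t; omega
  have hwpos : 0 < w := by
    obtain ⟨x, hx⟩ := hne t0
    obtain ⟨a, -⟩ := hreach t0 le_rfl x hx
    exact lt_of_le_of_lt (Nat.zero_le _) a.isLt
  choose F hF using fun t (a : Fin w) => hreach (lev t) (hlev0 t) (b (lev (t + 1)) a)
    (hanti (hmono.monotone (Nat.le_succ t)) (hb _ a))
  let idx : ℕ → Fin w := fun k => Nat.rec ⟨0, hwpos⟩ (fun k a => F (w - (k + 1)) a) k
  have hidx : ∀ k l, k ≤ l → l ≤ w →
      Conn L (A (lev (w - l))) (b (lev (w - k)) (idx k)) (b (lev (w - l)) (idx l)) := by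
    intro k l hkl
    induction l, hkl using Nat.le_induction with
    | base => exact fun _ => Relation.ReflTransGen.refl
    | succ l hkl ih =>
      intro hl
      have h1 := (ih (by omega)).mono (hanti (hmono.monotone
        (show w - (l + 1) ≤ w - l by omega)))
      have h2 := hF (w - (l + 1)) (idx l)
      rw [show w - (l + 1) + 1 = w - l by omega] at h2
      exact Relation.ReflTransGen.trans h1 h2
  obtain ⟨k, l, hne', heq⟩ := Fintype.exists_ne_map_eq_of_card_lt
    (fun k : Fin (w + 1) => idx k) (by simp)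
  wlog hkl : k < l generalizing k l
  · exact this l k hne'.symm heq.symm (lt_of_le_of_ne (not_lt.mp hkl) hne'.symm)
  have hkl' : (k : ℕ) < l := hkl
  have hlw : (l : ℕ) ≤ w := Nat.lt_succ_iff.mp l.isLt
  set i := lev (w - l) with hi
  set j := lev (w - k) with hj
  set a0 := idx k with ha0
  have hcross : Conn L (A i) (b i a0) (b j a0) := by
    refine Conn.symm hop ?_
    have := hidx k l (by omega) hlw
    rwa [← show idx k = idx l from heq] at this
  have hTj : T i ≤ j := by
    have h1 : T i + t0 < lev (w - l + 1) := hlev (w - l)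
    have h2 : lev (w - l + 1) ≤ j :=
      hmono.monotone (show w - (l : ℕ) + 1 ≤ w - (k : ℕ) by omega)
    omega
  have hij : i < j := by have := hTi i; omega
  obtain ⟨hfar, hback⟩ := hT i j hTj
  refine ⟨i, j, hij, ?_⟩
  have hkey : key i = key j := (hlevJ _).trans (hlevJ _).symm
  simp only [key, Prod.mk.injEq] at hkey
  obtain ⟨heqv, hmem, hrel⟩ := hkey
  have F3 : ∀ u v a c, u.length ≤ r → v.length ≤ r →
      (pt i u a = pt i v c ↔ pt j u a = pt j v c) := fun u v a c hu hv =>
    Set.ext_iff.1 heqv ((⟨u, hu⟩, a), (⟨v, hv⟩, c))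
  have F2 : ∀ u a, u.length ≤ r → (pt i u a ∈ A i ↔ pt j u a ∈ A j) := fun u a hu =>
    Set.ext_iff.1 hmem (⟨u, hu⟩, a)
  have Frel : ∀ a c, Conn L (A j) (b j a) (b j c) → Conn L (A i \ A j) (b i a) (b i c) :=
    fun a c h => hback a c ((Set.ext_iff.1 hrel (a, c)).2 h)
  have F1 : ∀ u a, u.length ≤ r → pt j u a ∈ A i := by
    intro u
    induction u with
    | nil => exact fun a _ => hanti hij.le (hb j a)
    | cons s u ih =>
      intro a hu
      simp only [List.length_cons] at hu
      have h1 := ih a (by omega)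
      by_contra h2
      obtain ⟨c, hc⟩ := hbd i s _ h1 (by simpa only [pt, run_cons] using h2)
      have e : ∀ (v : List (Fin n × Bool)) x, ∃ v' : List (Fin n × Bool),
          v'.length = v.length ∧ run L v' (run L v x) = x := by
        intro v
        induction v with
        | nil => exact fun x => ⟨[], rfl, rfl⟩
        | cons s v ih =>
          intro x
          obtain ⟨v', hv', hx⟩ := ih x
          refine ⟨v' ++ [(s.1, !s.2)], by simp [hv'], ?_⟩
          simp only [run, List.foldr_append, List.foldr_cons, List.foldr_nil]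
          rw [hop]
          exact hx
      obtain ⟨v', hv', hx⟩ := e u (b j a)
      refine hfar v' c (by omega) ?_
      simp only [pt] at hc ⊢
      rw [hc, hx]
      exact hb j a
  have F1' : ∀ u a, u.length ≤ r → pt i u a ∉ A j := fun u a hu => hfar u a (by omega)
  let D := {x // x ∈ A i \ A j}
  have hz0 : b i a0 ∈ A i \ A j := ⟨hb i a0, F1' [] a0 (by simp)⟩
  let Pi : X → Prop := fun x => ∃ q : W, pt i q.1.1 q.2 = x ∧ pt j q.1.1 q.2 ∈ A i \ A j
  let Pj : X → Prop := fun x => ∃ q : W, pt j q.1.1 q.2 = x ∧ pt i q.1.1 q.2 ∈ A i \ A j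
  let cl : X → ℤ × D := fun x =>
    if h : x ∈ A i \ A j then (0, ⟨x, h⟩)
    else if h' : x ∈ A j ∧ Pj x then (1, ⟨_, h'.2.choose_spec.2⟩)
    else if h'' : x ∉ A i ∧ Pi x then (-1, ⟨_, h''.2.choose_spec.2⟩)
    else (0, ⟨_, hz0⟩)
  have cl_D : ∀ z : D, cl z.1 = (0, z) := fun z => by
    simp only [cl]
    rw [dif_pos z.2]
  have cl_shift : ∀ u a, u.length ≤ r → cl (pt j u a) = sh 1 (cl (pt i u a)) := by
    intro u a hu
    by_cases hm : pt i u a ∈ A i
    · have hjm := (F2 u a hu).1 hm
      have hP : pt j u a ∈ A j ∧ Pj (pt j u a) :=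
        ⟨hjm, (⟨u, hu⟩, a), rfl, hm, F1' u a hu⟩
      rw [show cl (pt i u a) = (0, ⟨_, hm, F1' u a hu⟩) from cl_D ⟨_, hm, F1' u a hu⟩]
      simp only [cl]
      rw [dif_neg (fun h => h.2 hjm), dif_pos hP]
      refine Prod.ext (by simp [sh]) (Subtype.ext ?_)
      exact ((F3 _ u _ a hP.2.choose.1.2 hu).2 hP.2.choose_spec.1)
    · have hjm : pt j u a ∉ A j := fun h => hm ((F2 u a hu).2 h)
      have hP : pt i u a ∉ A i ∧ Pi (pt i u a) :=
        ⟨hm, (⟨u, hu⟩, a), rfl, F1 u a hu, hjm⟩
      rw [show cl (pt j u a) = (0, ⟨_, F1 u a hu, hjm⟩) from cl_D ⟨_, F1 u a hu, hjm⟩]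
      simp only [cl]
      rw [dif_neg (fun h => hm h.1), dif_neg (fun h => hm (hanti hij.le h.1)), dif_pos hP]
      refine Prod.ext (by simp [sh]) (Subtype.ext ?_)
      exact ((F3 _ u _ a hP.2.choose.1.2 hu).1 hP.2.choose_spec.1).symm
  let tau : Fin n × Bool → ℤ × D → ℤ × D := fun s z => sh z.1 (cl (L s z.2.1))
  have sh_sh : ∀ (m m' : ℤ) (z : ℤ × D), sh m (sh m' z) = sh (m + m') z := fun m m' z => by
    simp [sh, add_assoc]
  have sh_zero : ∀ z : ℤ × D, sh 0 z = z := fun z => by simp [sh]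
  have tau_sh : ∀ s m z, tau s (sh m z) = sh m (tau s z) := fun s m z => by
    simp [tau, sh, add_assoc]
  have tau_cl_D : ∀ s x, x ∈ A i \ A j → tau s (cl x) = cl (L s x) := fun s x hx => by
    rw [cl_D ⟨x, hx⟩]
    exact sh_zero _
  have tau_pt : ∀ s u a, u.length + 1 ≤ r →
      tau s (cl (pt i u a)) = cl (pt i (s :: u) a) ∧
        tau s (cl (pt j u a)) = cl (pt j (s :: u) a) := by
    intro s u a hu
    rw [cl_shift u a (by omega), tau_sh, cl_shift (s :: u) a (by simpa using hu)]
    by_cases hm : pt i u a ∈ A i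
    · have := tau_cl_D s _ ⟨hm, F1' u a (by omega)⟩
      rw [this]
      exact ⟨rfl, rfl⟩
    · have h := tau_cl_D s (pt j u a) ⟨F1 u a (by omega), fun h => hm ((F2 u a (by omega)).2 h)⟩
      have h2 : L s (pt j u a) = pt j (s :: u) a := rfl
      rw [cl_shift u a (by omega), tau_sh, h2, cl_shift (s :: u) a (by simpa using hu)] at h
      have h3 : tau s (cl (pt i u a)) = cl (pt i (s :: u) a) := by
        have := congrArg (sh (-1)) h
        simpa [sh_sh, sh_zero] using this
      rw [h3]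
      exact ⟨rfl, rfl⟩
  have reach : ∀ v (z : D), run L v z.1 ∈ A i \ A j ∨
      ∃ v' a, v'.length ≤ v.length ∧ (run L v z.1 = pt i v' a ∨ run L v z.1 = pt j v' a) := by
    intro v z
    induction v with
    | nil => exact Or.inl z.2
    | cons s v ih =>
      rcases ih with h | ⟨v', a, hv', h⟩
      · by_cases h1 : L s (run L v z.1) ∈ A i
        · by_cases h2 : L s (run L v z.1) ∈ A j
          · obtain ⟨a, ha⟩ := hbd j (s.1, !s.2) _ h2 (by
              change L _ _ ∉ A j
              rw [hop]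
              exact h.2)
            exact Or.inr ⟨[], a, by simp, Or.inr (by rw [run_cons, ← ha]; rfl)⟩
          · exact Or.inl ⟨h1, h2⟩
        · obtain ⟨a, ha⟩ := hbd i s _ h.1 h1
          exact Or.inr ⟨[s], a, by simp, Or.inl (by rw [run_cons, ← ha]; rfl)⟩
      · refine Or.inr ⟨s :: v', a, by simp [hv'], h.imp (fun h => ?_) (fun h => ?_)⟩ <;>
          rw [run_cons, h] <;> rfl
  have runT : ∀ v, v.length ≤ M + 2 → ∀ z : D,
      v.foldr (fun s y => tau s y) (0, z) = cl (run L v z.1) := by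
    intro v
    induction v with
    | nil => exact fun _ z => (cl_D z).symm
    | cons s v ih =>
      intro hv z
      simp only [List.length_cons] at hv
      rw [List.foldr_cons, ih (by omega) z, run_cons]
      rcases reach v z with h | ⟨v', a, hv', h | h⟩
      · exact tau_cl_D s _ h
      · rw [h]; exact (tau_pt s v' a (by omega)).1
      · rw [h]; exact (tau_pt s v' a (by omega)).2
  have runT_sh : ∀ (v : List (Fin n × Bool)) (m : ℤ) (z : ℤ × D), v.foldr (fun s y => tau s y) (sh m z) =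
      sh m (v.foldr (fun s y => tau s y) z) := by
    intro v m z
    induction v with
    | nil => rfl
    | cons s v ih => simp only [List.foldr_cons, ih, tau_sh]
  have run_id : ∀ v, v.length ≤ M + 2 → (∀ x, run L v x = x) → ∀ z,
      v.foldr (fun s y => tau s y) z = z := by
    intro v hv h z
    have e : z = sh z.1 (0, z.2) := by simp [sh]
    rw [e, runT_sh, runT v hv, h, cl_D]
  have hinv : ∀ s z, tau (s.1, !s.2) (tau s z) = z := fun s z => by
    simpa using run_id [(s.1, !s.2), s] (by simp) (fun x => by simp [run, hop]) z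
  let σ : Fin n → Equiv.Perm (ℤ × D) := fun c =>
    { toFun := tau (c, true)
      invFun := tau (c, false)
      left_inv := fun z => hinv (c, true) z
      right_inv := fun z => hinv (c, false) z }
  let B : Fin n × Bool → Equiv.Perm (ℤ × D) := fun s => cond s.2 (σ s.1) (σ s.1)⁻¹
  have hB : (fun s y => B s y) = tau := funext fun s => funext fun y => by
    obtain ⟨c, q⟩ := s
    cases q <;> rfl
  have hlift : ∀ v z, FreeGroup.lift σ (FreeGroup.mk v) z = v.foldr (fun s y => tau s y) z := by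
    intro v z
    rw [FreeGroup.lift_mk]
    change (v.map B).prod z = _
    rw [prod_eq, run]
    exact congrArg (fun f => v.foldr f z) hB
  have hSk : φ.ker ≤ (FreeGroup.lift σ).ker := by
    rw [← hker]
    refine Subgroup.normalClosure_le_normal fun v hv => ?_
    rw [SetLike.mem_coe, MonoidHom.mem_ker, ← FreeGroup.mk_toWord (x := v)]
    refine Equiv.ext fun z => ?_
    rw [hlift]
    refine run_id _ ?_ (fun x => ?_) z
    · have := Finset.le_sup (f := fun v : FreeGroup (Fin n) => v.toWord.length)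
        (hS.mem_toFinset.mpr hv)
      exact le_trans this (by omega)
    · rw [← hmk, FreeGroup.mk_toWord,
        (MonoidHom.mem_ker (f := φ)).mp (hker ▸ Subgroup.subset_normalClosure hv), map_one]
      rfl
  let ψ : G →* Equiv.Perm (ℤ × D) :=
    φ.liftOfRightInverse (Function.surjInv hφ) (Function.rightInverse_surjInv hφ)
      ⟨FreeGroup.lift σ, hSk⟩
  have hψ : ∀ v, ψ (φ v) = FreeGroup.lift σ v := fun v =>
    MonoidHom.liftOfRightInverse_comp_apply φ _ _ ⟨FreeGroup.lift σ, hSk⟩ v
  have hsh : ∀ g m z, ψ g (sh m z) = sh m (ψ g z) := by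
    intro g m z
    obtain ⟨v, rfl⟩ := hφ g
    rw [hψ, ← FreeGroup.mk_toWord (x := v), hlift, hlift, runT_sh]
  refine ⟨ψ, hsh, ?_⟩
  let Lk : ℤ × D → ℤ × D → Prop := fun x y => ∃ g, ψ g x = y
  have Ltr : ∀ {x y z}, Lk x y → Lk y z → Lk x z := fun ⟨g, hg⟩ ⟨h, hh⟩ =>
    ⟨h * g, by rw [map_mul, Equiv.Perm.mul_apply, hg, hh]⟩
  have Lsh : ∀ {x y}, Lk x y → Lk (sh 1 x) (sh 1 y) := fun {x y} ⟨g, hg⟩ =>
    ⟨g, by rw [hsh, hg]⟩
  have Lstep : ∀ s z, Lk z (tau s z) := fun s z =>
    ⟨φ (FreeGroup.mk [s]), by rw [hψ, hlift]; rfl⟩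
  have Ledge : ∀ s x, x ∈ A i \ A j → Lk (cl x) (cl (L s x)) := fun s x hx => by
    rw [← tau_cl_D s x hx]; exact Lstep _ _
  have LD : ∀ {x y}, Conn L (A i \ A j) x y → Lk (cl x) (cl y) := by
    intro x y h
    induction h with
    | refl => exact ⟨1, by simp⟩
    | tail _ h2 ih =>
      obtain ⟨h1, -, s, rfl⟩ := h2
      exact Ltr ih (Ledge s _ h1)
  have cl_b : ∀ a, cl (b j a) = sh 1 (cl (b i a)) := fun a => cl_shift [] a (by simp)
  have main : ∀ x, Conn L (A i) (b i a0) x →
      (x ∉ A j ∧ Lk (cl (b i a0)) (cl x)) ∨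
        (x ∈ A j ∧ ∃ a, Lk (cl (b i a0)) (cl (b j a)) ∧ Conn L (A j) (b j a) x) := by
    intro x hx
    induction hx with
    | refl => exact Or.inl ⟨hz0.2, 1, by simp⟩
    | @tail x y _ hxy ih =>
      obtain ⟨hx', hy', s, rfl⟩ := hxy
      by_cases hy : L s x ∈ A j
      · refine Or.inr ⟨hy, ?_⟩
        rcases ih with ⟨hxj, hl⟩ | ⟨hxj, a, hl, hC⟩
        · obtain ⟨a, ha⟩ := hbd j (s.1, !s.2) _ hy (by
            change L _ _ ∉ A j
            rwa [hop])
          exact ⟨a, ha ▸ Ltr hl (Ledge s x ⟨hx', hxj⟩), ha ▸ Relation.ReflTransGen.refl⟩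
        · exact ⟨a, hl, hC.tail ⟨hxj, hy, s, rfl⟩⟩
      · refine Or.inl ⟨hy, ?_⟩
        rcases ih with ⟨hxj, hl⟩ | ⟨hxj, a, hl, hC⟩
        · exact Ltr hl (Ledge s x ⟨hx', hxj⟩)
        · obtain ⟨c, hc⟩ := hbd j s x hxj hy
          subst hc
          have h1 := Lsh (LD (Frel a c hC))
          rw [← cl_b a] at h1
          have h2 : Lk (cl (b j c)) (cl (L s (b j c))) := by
            have := (tau_pt s [] c (by simp [hr])).2
            simp only [pt, run, List.foldr_cons, List.foldr_nil] at this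
            rw [← this]
            exact Lstep _ _
          rw [← cl_b c] at h1
          exact Ltr (Ltr hl h1) h2
  rcases main _ hcross with ⟨h, -⟩ | ⟨-, a, hl, hC⟩
  · exact absurd (hb j a0) h
  · have h1 := Lsh (LD (Frel a a0 hC))
    rw [← cl_b a] at h1
    obtain ⟨g, hg⟩ := Ltr hl h1
    rw [cl_D ⟨b i a0, hz0⟩] at hg
    exact ⟨g, ⟨b i a0, hz0⟩, by simpa [sh] using hg⟩

end Vale.Agent.P192.Ends
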